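import Vale.Agent.P011.H565.P11FF
import Vale.Agent.P011.H698.LevFF
import Vale.Agent.P011.H961.Loc

/-!
# Density of the unitary group at one place

`A` a central simple algebra with an anisotropic involution of the second kind over `k`, every
characteristic.  The unitary group is dense in `GL_n(k_v)` at a place `v` which splits in the
centre, and in the unitary group of the hermitian matrix `H` if the centre is dense in the local
field `L` with an involution.
-/

open Matrix Filter Module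
open scoped Topology

namespace Vale.Agent.P011.H800

open Vale.Agent.P011.H738 Vale.Agent.P011.H565

section aux

/-- An element of trace one for an involution which is not trivial. -/
theorem exists_trace_one {K : Type*} [Field K] [StarRing K] (hne : ∃ x : K, star x ≠ x) :
    ∃ e : K, e + star e = 1 := by
  obtain ⟨x, hx⟩ := hne
  by_cases h : x + star x = 0
  · have h1 : star x = -x := by rw [eq_neg_iff_add_eq_zero, add_comm]; exact h
    have h2 : (2 : K) ≠ 0 := by
      intro h2
      apply hx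
      rw [h1]
      have h3 : x + x = 0 := by rw [← two_mul, h2, zero_mul]
      exact neg_eq_of_add_eq_zero_left h3
    refine ⟨2⁻¹, ?_⟩
    have h3 : star (2⁻¹ : K) = 2⁻¹ := by
      rw [star_inv₀, star_ofNat]
    rw [h3, ← two_mul, mul_inv_cancel₀ h2]
  · refine ⟨x / (x + star x), ?_⟩
    have h1 : star (x / (x + star x)) = star x / (x + star x) := by
      rw [star_div₀, star_add, star_star, add_comm (star x) x]
    rw [h1, ← add_div, div_self h]

/-- Infinitely many scalars `z` with `z * star z = 1` tend to one. -/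
theorem exists_unitary_seq {L : Type*} [NontriviallyNormedField L] [StarRing L]
    (hne : ∃ x : L, star x ≠ x) (hst : ∀ x : L, ‖star x‖ = ‖x‖) :
    ∃ z : ℕ → L, Function.Injective z ∧ Tendsto z atTop (𝓝 1) ∧ ∀ m, z m * star (z m) = 1 := by
  obtain ⟨y, hy0, hy1⟩ := NormedField.exists_norm_lt_one L
  obtain ⟨x₀, hx₀⟩ := hne
  set r : L := y * star y with hr
  have hrs : star r = r := by rw [hr, star_mul, star_star]
  have hrn : ‖r‖ = ‖y‖ * ‖y‖ := by rw [hr, norm_mul, hst]
  have hr0 : 0 < ‖r‖ := by rw [hrn]; positivity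
  have hr1 : ‖r‖ < 1 := by
    rw [hrn]
    exact mul_lt_one_of_nonneg_of_lt_one_left hy0.le hy1 hy1.le
  have hrne : r ≠ 0 := norm_pos_iff.1 hr0
  obtain ⟨N, hN⟩ : ∃ N : ℕ, ‖r‖ ^ N * ‖x₀‖ < 1 := by
    have h1 : Tendsto (fun N : ℕ => ‖r‖ ^ N * ‖x₀‖) atTop (𝓝 (0 * ‖x₀‖)) :=
      (tendsto_pow_atTop_nhds_zero_of_lt_one hr0.le hr1).mul_const _
    rw [zero_mul] at h1
    exact (h1.eventually (gt_mem_nhds zero_lt_one)).exists
  set x : L := r ^ N * x₀ with hx
  have hxn : ‖x‖ < 1 := by rw [hx, norm_mul, norm_pow]; exact hN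
  have hxs : star x ≠ x := by
    intro h
    apply hx₀
    rw [hx, star_mul, star_pow, hrs, mul_comm] at h
    exact mul_left_cancel₀ (pow_ne_zero N hrne) h
  clear_value x
  have hts : ∀ m : ℕ, star (r ^ m) = r ^ m := fun m => by rw [star_pow, hrs]
  have hne1 : ∀ (m : ℕ) (a : L), ‖a‖ < 1 → 1 + r ^ m * a ≠ 0 := by
    intro m a ha h
    have h1 : r ^ m * a = -1 := by rw [eq_neg_iff_add_eq_zero, add_comm]; exact h
    have h2 : ‖r ^ m * a‖ = 1 := by rw [h1, norm_neg, norm_one]
    rw [norm_mul, norm_pow] at h2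
    have h3 : ‖r‖ ^ m ≤ 1 := pow_le_one₀ hr0.le hr1.le
    have h4 : ‖r‖ ^ m * ‖a‖ ≤ 1 * ‖a‖ := mul_le_mul_of_nonneg_right h3 (norm_nonneg a)
    linarith
  have hsxn : ‖star x‖ < 1 := by rw [hst]; exact hxn
  refine ⟨fun m => (1 + r ^ m * x) / (1 + r ^ m * star x), ?_, ?_, ?_⟩
  · intro a b hab
    have hab' : (1 + r ^ a * x) / (1 + r ^ a * star x) =
      (1 + r ^ b * x) / (1 + r ^ b * star x) := hab
    rw [div_eq_div_iff (hne1 a _ hsxn) (hne1 b _ hsxn)] at hab'
    have h1 : (r ^ a - r ^ b) * (x - star x) = 0 := by linear_combination hab'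
    rcases mul_eq_zero.1 h1 with h2 | h2
    · have h3 : ‖r‖ ^ a = ‖r‖ ^ b := by rw [← norm_pow, ← norm_pow, sub_eq_zero.1 h2]
      exact (pow_right_injective₀ hr0 hr1.ne) h3
    · exact absurd (sub_eq_zero.1 h2).symm hxs
  · have h1 : ∀ a : L, Tendsto (fun m : ℕ => 1 + r ^ m * a) atTop (𝓝 1) := by
      intro a
      have h2 : Tendsto (fun m : ℕ => r ^ m) atTop (𝓝 0) :=
        tendsto_pow_atTop_nhds_zero_of_norm_lt_one hr1
      have h3 := (h2.mul_const a).const_add 1
      rwa [zero_mul, add_zero] at h3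
    have h2 := (h1 x).div (h1 (star x)) one_ne_zero
    rwa [div_one] at h2
  · intro m
    have h1 : star ((1 + r ^ m * x) / (1 + r ^ m * star x)) =
        (1 + r ^ m * star x) / (1 + r ^ m * x) := by
      rw [star_div₀, star_add, star_add, star_mul, star_mul, star_one, star_star, hts,
        mul_comm (star x), mul_comm x]
    rw [h1, div_mul_div_comm, mul_comm, div_self]
    exact mul_ne_zero (hne1 m _ hsxn) (hne1 m _ hxn)

end aux

section unitary

variable {n : ℕ} {L : Type*} [NontriviallyNormedField L] [StarRing L]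
  {H : Matrix (Fin n) (Fin n) L}

open Vale.Agent.P011.H961

theorem continuous_star_of_norm {L : Type*} [NormedField L] [StarRing L]
    (hst : ∀ x : L, ‖star x‖ = ‖x‖) : Continuous (star : L → L) := by
  have h1 : Isometry (star : L → L) := by
    refine Isometry.of_dist_eq fun a b => ?_
    rw [dist_eq_norm, dist_eq_norm, ← star_sub, hst]
  exact h1.continuous

/-- A unitary matrix is a limit of unitary matrices `T` with `1 - T` invertible. -/
theorem exists_near_unitary (hne : ∃ x : L, star x ≠ x) (hst : ∀ x : L, ‖star x‖ = ‖x‖)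
    {T : (Matrix (Fin n) (Fin n) L)ˣ} (hT : T ∈ UH H) {O : Set (Matrix (Fin n) (Fin n) L)ˣ}
    (hO : O ∈ 𝓝 T) :
    ∃ T' ∈ O, T' ∈ UH H ∧ IsUnit (1 - (T' : Matrix (Fin n) (Fin n) L)) := by
  classical
  let Ψ : Lˣ → (Matrix (Fin n) (Fin n) L)ˣ := fun x =>
    Units.map (algebraMap L (Matrix (Fin n) (Fin n) L)).toMonoidHom x * T
  have hΨ : Continuous Ψ := by
    have h1 : Continuous (Units.map (algebraMap L (Matrix (Fin n) (Fin n) L)).toMonoidHom) := by
      refine Continuous.units_map _ ?_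
      change Continuous fun x : L => algebraMap L (Matrix (Fin n) (Fin n) L) x
      exact continuous_algebraMap L (Matrix (Fin n) (Fin n) L)
    exact h1.mul continuous_const
  have h1 : Ψ ⁻¹' O ∈ 𝓝 (1 : Lˣ) := by
    refine hΨ.continuousAt ?_
    have : Ψ 1 = T := by simp [Ψ]
    rwa [this]
  rw [Units.isEmbedding_val₀.isInducing.nhds_eq_comap, mem_comap] at h1
  obtain ⟨V, hV, hVO⟩ := h1
  obtain ⟨z, hzi, hzt, hzu⟩ := exists_unitary_seq hne hst
  have hz0 : ∀ m, z m ≠ 0 := by
    intro m h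
    have := hzu m
    rw [h, zero_mul] at this
    exact zero_ne_one this
  have hev1 : ∀ᶠ m in atTop, z m ∈ V := hzt hV
  have hev2 : ∀ᶠ m in atTop,
      z m ∉ ((T : Matrix (Fin n) (Fin n) L).charpoly.roots.toFinset.image fun y => y⁻¹ : Finset L) := by
    rw [← Nat.cofinite_eq_atTop]
    exact hzi.tendsto_cofinite.eventually (Set.Finite.eventually_cofinite_notMem
      (Finset.finite_toSet _))
  obtain ⟨m, hm1, hm2⟩ := (hev1.and hev2).exists
  have e1 : (Ψ (Units.mk0 (z m) (hz0 m)) : Matrix (Fin n) (Fin n) L) =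
      z m • (T : Matrix (Fin n) (Fin n) L) := by
    simp only [Ψ, Units.val_mul, Units.coe_map]
    change algebraMap L (Matrix (Fin n) (Fin n) L) (z m) * T = _
    rw [Algebra.algebraMap_eq_smul_one, smul_mul_assoc, one_mul]
  refine ⟨Ψ (Units.mk0 (z m) (hz0 m)), hVO hm1, ?_, ?_⟩
  · rw [mem_UH] at hT ⊢
    rw [e1, conjTranspose_smul, smul_mul_assoc, smul_mul_assoc, mul_smul_comm, hT, smul_smul, hzu,
      one_smul]
  · have h3 : (1 : Matrix (Fin n) (Fin n) L) - (Ψ (Units.mk0 (z m) (hz0 m)) :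
        Matrix (Fin n) (Fin n) L) =
        z m • (Matrix.scalar (Fin n) (z m)⁻¹ - (T : Matrix (Fin n) (Fin n) L)) := by
      rw [e1, smul_sub]
      congr 1
      rw [Matrix.scalar_apply, ← smul_one_eq_diagonal, smul_smul, mul_inv_cancel₀ (hz0 m),
        one_smul]
    rw [h3, Matrix.isUnit_iff_isUnit_det, det_smul]
    refine ((isUnit_iff_ne_zero.2 (hz0 m)).pow _).mul (isUnit_iff_ne_zero.2 fun h4 => hm2 ?_)
    rw [← Matrix.eval_charpoly] at h4
    rw [Finset.mem_image]
    refine ⟨(z m)⁻¹, ?_, inv_inv _⟩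
    rw [Multiset.mem_toFinset, Polynomial.mem_roots (Matrix.charpoly_monic _).ne_zero]
    exact h4

/-- The inverse Cayley transform of a unitary matrix is hermitian. -/
theorem herm_of_unitary {T : (Matrix (Fin n) (Fin n) L)ˣ} (hT : T ∈ UH H)
    (h1 : IsUnit (1 - (T : Matrix (Fin n) (Fin n) L))) {ω : L} {s : Matrix (Fin n) (Fin n) L}
    (h2 : (1 - (T : Matrix (Fin n) (Fin n) L)) * s =
      star ω • (T : Matrix (Fin n) (Fin n) L) - ω • 1) : s * H = H * sᴴ := by
  obtain ⟨t, ht⟩ := h1
  rw [mem_UH] at hT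
  set τ : Matrix (Fin n) (Fin n) L := (T : Matrix (Fin n) (Fin n) L) with hτ
  have hcomm : Commute τ s := by
    have c1 : Commute (t : Matrix (Fin n) (Fin n) L) τ := by
      rw [ht]
      exact (Commute.one_left τ).sub_left (Commute.refl τ)
    have c2 : Commute ((t⁻¹ : (Matrix (Fin n) (Fin n) L)ˣ) : Matrix (Fin n) (Fin n) L) τ :=
      c1.units_inv_left
    have c3 : Commute (star ω • τ - ω • (1 : Matrix (Fin n) (Fin n) L)) τ :=
      ((Commute.refl τ).smul_left _).sub_left ((Commute.one_left τ).smul_left _)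
    have h3 : s = ((t⁻¹ : (Matrix (Fin n) (Fin n) L)ˣ) : Matrix (Fin n) (Fin n) L) *
        (star ω • τ - ω • (1 : Matrix (Fin n) (Fin n) L)) := by
      rw [← h2, ← ht, Units.inv_mul_cancel_left]
    rw [h3]
    exact (c2.mul_left c3).symm
  have h2' : sᴴ * (1 - τᴴ) = ω • τᴴ - star ω • (1 : Matrix (Fin n) (Fin n) L) := by
    have h3 := congrArg conjTranspose h2
    rw [conjTranspose_mul, conjTranspose_sub, conjTranspose_one, conjTranspose_sub,
      conjTranspose_smul, conjTranspose_smul, star_star, conjTranspose_one] at h3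
    exact h3
  have hcomm' : τᴴ * sᴴ = sᴴ * τᴴ := by
    rw [← conjTranspose_mul, ← conjTranspose_mul, hcomm.eq]
  have hTH : IsUnit τᴴ := by
    rw [Matrix.isUnit_iff_isUnit_det, det_conjTranspose]
    exact ((Matrix.isUnit_iff_isUnit_det _).1 T.isUnit).star
  have hl : (1 - τ) * H * τᴴ = -(H * (1 - τᴴ)) := by
    rw [sub_mul, sub_mul, one_mul, hT, mul_sub, mul_one]
    abel
  have key : (1 - τ) * (H * sᴴ) * τᴴ = (1 - τ) * (s * H) * τᴴ := by
    calc (1 - τ) * (H * sᴴ) * τᴴ = (1 - τ) * H * (sᴴ * τᴴ) := by simp only [mul_assoc]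
      _ = ((1 - τ) * H * τᴴ) * sᴴ := by rw [← hcomm']; simp only [mul_assoc]
      _ = -(H * ((1 - τᴴ) * sᴴ)) := by rw [hl, neg_mul, mul_assoc]
      _ = -(H * (sᴴ * (1 - τᴴ))) := by
          have : (1 - τᴴ) * sᴴ = sᴴ * (1 - τᴴ) := by
            rw [sub_mul, one_mul, mul_sub, mul_one, hcomm']
          rw [this]
      _ = -(H * (ω • τᴴ - star ω • (1 : Matrix (Fin n) (Fin n) L))) := by rw [h2']
      _ = star ω • H - ω • (H * τᴴ) := by
          rw [mul_sub, mul_smul_comm, mul_smul_comm, mul_one]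
          abel
      _ = star ω • (τ * H * τᴴ) - ω • (H * τᴴ) := by rw [hT]
      _ = (star ω • τ - ω • (1 : Matrix (Fin n) (Fin n) L)) * H * τᴴ := by
          rw [sub_mul, sub_mul, smul_mul_assoc, smul_mul_assoc, smul_mul_assoc, smul_mul_assoc,
            one_mul]
      _ = (1 - τ) * (s * H) * τᴴ := by rw [← h2]; simp only [mul_assoc]
  have key2 := hTH.mul_right_cancel key
  rw [← ht] at key2
  exact (t.isUnit.mul_left_cancel key2).symm

end unitary

section main

variable {k K A : Type} [Field k] [Field K] [StarRing K] [Ring A] [StarRing A]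
  [Algebra k K] [Algebra k A] [Algebra K A] [IsScalarTower k K A] [StarModule K A] {n : ℕ}

open Vale.Agent.P011.H961

/-- **Density of the unitary group in `GL_n` at a place which splits in the centre.** -/
theorem dense_gl (hA : Anis k K A n) (hn : n ≠ 0) {v : Place k} {φ : K →ₐ[k] v.comp}
    {g : A →+* Matrix (Fin n) (Fin n) v.comp}
    (hφ : ∀ c : K, g (algebraMap K A c) = algebraMap v.comp _ (φ c)) :
    DenseRange fun u : H698.UA A =>
      Units.map (g : A →* Matrix (Fin n) (Fin n) v.comp) (u : Aˣ) := by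
  obtain ⟨w, hw⟩ := hA.star_ne
  have := nebot_comp v
  have hcen := hA.central
  have hsim := hA.simple
  have hspan : Submodule.span v.comp (Set.range g) = ⊤ :=
    H519.span_range_eq_top hA.finrank_eq hn (φ : K →+* v.comp) g hφ
  have h := denseRange_rhoR (U := H698.UA A) (w := algebraMap K A w) (ω := φ w) (ω' := φ (star w))
    (fun x => Algebra.commutes w x) (fun _ => Iff.rfl) g
    (fun x hx => isUnit_of_splitting hA hn g hx) ?_ ?_ ?_ ?_
  · exact h
  · rw [hφ, Algebra.algebraMap_eq_smul_one]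
  · rw [star_algKB, hφ, Algebra.algebraMap_eq_smul_one]
  · exact fun h => hw (φ.injective h.symm)
  · intro X O hO
    refine dense_sym_of_span' (w := algebraMap K A w) (ω := φ w) (algebraMap k v.comp)
      (denseRange_comp v) (algebraMap k A) (fun c => ?_) (fun c x => Algebra.commutes c x) g
      (fun c => ?_) (fun x => Algebra.commutes w x) ?_ ?_ hspan X hO
    · rw [IsScalarTower.algebraMap_apply k K A, star_algKB, (hA.fixed _).2 ⟨c, rfl⟩]
    · rw [IsScalarTower.algebraMap_apply k K A, hφ, φ.commutes, Algebra.algebraMap_eq_smul_one]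
    · rw [star_algKB, ← map_sub]
      exact (isUnit_iff_ne_zero.2 (sub_ne_zero.2 (Ne.symm hw))).map (algebraMap K A)
    · rw [hφ, Algebra.algebraMap_eq_smul_one]

/-- If the centre is dense in the local field then the algebra is dense in the matrix ring. -/
theorem denseRange_mat (hA : Anis k K A n) (hn : n ≠ 0) {L : Type*} [NontriviallyNormedField L]
    (φ : K →+* L) (hd : DenseRange φ) {g : A →+* Matrix (Fin n) (Fin n) L}
    (hg : ∀ c : K, g (algebraMap K A c) = algebraMap L _ (φ c)) : DenseRange g := by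
  have hcen := hA.central
  have hsim := hA.simple
  have hspan : Submodule.span L (Set.range g) = ⊤ :=
    H519.span_range_eq_top hA.finrank_eq hn φ g hg
  let S : AddSubgroup (Matrix (Fin n) (Fin n) L) :=
    (g : A →+ Matrix (Fin n) (Fin n) L).range
  let C : AddSubgroup (Matrix (Fin n) (Fin n) L) := S.topologicalClosure
  have hC : IsClosed (C : Set (Matrix (Fin n) (Fin n) L)) := S.isClosed_topologicalClosure
  have h1 : ∀ x ∈ S, ∀ c : L, c • x ∈ C := by
    rintro _ ⟨a, rfl⟩ c
    have h2 : IsClosed {c : L | c • (g a) ∈ C} :=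
      hC.preimage (continuous_id.smul continuous_const)
    have h3 : Set.range φ ⊆ {c : L | c • (g a) ∈ C} := by
      rintro _ ⟨b, rfl⟩
      refine S.le_topologicalClosure ⟨algebraMap K A b * a, ?_⟩
      change g (algebraMap K A b * a) = φ b • g a
      rw [map_mul, hg, Algebra.smul_def]
    exact (h2.closure_subset_iff.2 h3) (hd c)
  have h2 : ∀ x ∈ C, ∀ c : L, c • x ∈ C := by
    intro x hx c
    have h3 : IsClosed {x : Matrix (Fin n) (Fin n) L | c • x ∈ C} :=
      hC.preimage (continuous_const_smul c)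
    have h4 : closure (S : Set (Matrix (Fin n) (Fin n) L)) ⊆
        {x : Matrix (Fin n) (Fin n) L | c • x ∈ C} :=
      h3.closure_subset_iff.2 fun x hx => h1 x hx c
    exact h4 hx
  let M : Submodule L (Matrix (Fin n) (Fin n) L) :=
    { C with smul_mem' := fun c x hx => h2 x hx c }
  have h3 : Submodule.span L (Set.range g) ≤ M := by
    rw [Submodule.span_le]
    rintro _ ⟨x, rfl⟩
    exact S.le_topologicalClosure ⟨x, rfl⟩
  intro X
  rw [hspan] at h3
  have h4 : X ∈ C := h3 Submodule.mem_top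
  have h5 : X ∈ closure (S : Set (Matrix (Fin n) (Fin n) L)) := h4
  have h6 : (S : Set (Matrix (Fin n) (Fin n) L)) = Set.range g := rfl
  rwa [h6] at h5

variable {L : Type*} [NontriviallyNormedField L] [StarRing L]

/-- **Density of the symmetric elements at a place which does not split in the centre.** -/
theorem dense_sym_herm (hA : Anis k K A n) (hn : n ≠ 0) (hst : ∀ x : L, ‖star x‖ = ‖x‖)
    (φ : K →+* L) (hφ : ∀ x, φ (star x) = star (φ x)) (hd : DenseRange φ)
    {g : A →+* Matrix (Fin n) (Fin n) L}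
    (hg : ∀ c : K, g (algebraMap K A c) = algebraMap L _ (φ c))
    {H : Matrix (Fin n) (Fin n) L} (hdet : H.det ≠ 0)
    (hgH : ∀ x, g (star x) * H = H * (g x)ᴴ) {s : Matrix (Fin n) (Fin n) L}
    (hs : s * H = H * sᴴ) {O : Set (Matrix (Fin n) (Fin n) L)} (hO : O ∈ 𝓝 s) :
    ∃ σ : A, star σ = σ ∧ g σ ∈ O := by
  have hHu : IsUnit H.det := isUnit_iff_ne_zero.2 hdet
  obtain ⟨e, he⟩ := exists_trace_one hA.star_ne
  have hcs : Continuous (star : L → L) := continuous_star_of_norm hst
  have : ContinuousStar L := ⟨hcs⟩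
  set Φ : Matrix (Fin n) (Fin n) L → Matrix (Fin n) (Fin n) L := fun X => X + H * Xᴴ * H⁻¹ with hΦ
  have hΦc : Continuous Φ := by
    have h1 : Continuous fun X : Matrix (Fin n) (Fin n) L => Xᴴ :=
      continuous_id.matrix_conjTranspose
    exact continuous_id.add ((continuous_const.mul h1).mul continuous_const)
  have hΦs : Φ (φ e • s) = s := by
    have h1 : H * sᴴ * H⁻¹ = s := by
      rw [← hs, mul_assoc, mul_nonsing_inv _ hHu, mul_one]
    have h2 : φ e + star (φ e) = 1 := by rw [← hφ, ← map_add, he, map_one]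
    simp only [hΦ]
    rw [conjTranspose_smul, mul_smul_comm, smul_mul_assoc, h1, ← add_smul, h2, one_smul]
  have hO' : Φ ⁻¹' O ∈ 𝓝 (φ e • s) := by
    refine hΦc.continuousAt ?_
    rwa [hΦs]
  obtain ⟨_, hX, a, rfl⟩ := mem_closure_iff_nhds.1 (denseRange_mat hA hn φ hd hg (φ e • s)) _ hO'
  refine ⟨a + star a, by rw [star_add, star_star, add_comm], ?_⟩
  have h3 : Φ (g a) = g (a + star a) := by
    simp only [hΦ]
    rw [← hgH, mul_assoc, mul_nonsing_inv _ hHu, mul_one, map_add]
  rw [← h3]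
  exact hX

/-- **Density of the unitary group at a place which does not split in the centre.** -/
theorem dense_u' (hA : Anis k K A n) (hst : ∀ x : L, ‖star x‖ = ‖x‖)
    (φ : K →+* L) (hφ : ∀ x, φ (star x) = star (φ x)) (hd : DenseRange φ)
    {g : A →+* Matrix (Fin n) (Fin n) L}
    (hg : ∀ c : K, g (algebraMap K A c) = algebraMap L _ (φ c))
    {H : Matrix (Fin n) (Fin n) L} (hdet : H.det ≠ 0)
    (hgH : ∀ x, g (star x) * H = H * (g x)ᴴ) :
    (UH H : Set (Matrix (Fin n) (Fin n) L)ˣ) ⊆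
      closure (Set.range fun u : H698.UA A =>
        Units.map (g : A →* Matrix (Fin n) (Fin n) L) (u : Aˣ)) := by
  intro T hT
  rcases Nat.eq_zero_or_pos n with rfl | hn
  · refine subset_closure ⟨1, ?_⟩
    exact Units.ext (Subsingleton.elim _ _)
  have hn : n ≠ 0 := hn.ne'
  obtain ⟨w, hw⟩ := hA.star_ne
  have hne : ∃ x : L, star x ≠ x := ⟨φ w, by
    rw [← hφ]
    exact fun h => hw (φ.injective h)⟩
  rw [mem_closure_iff_nhds]
  intro O hO
  obtain ⟨O', hO'O, hO'o, hTO'⟩ := mem_nhds_iff.1 hO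
  obtain ⟨T', hT'O, hT'U, ⟨t, ht⟩⟩ := exists_near_unitary hne hst hT (hO'o.mem_nhds hTO')
  set ω : L := φ w with hω
  have hω' : φ (star w) = star ω := hφ w
  have hωne : ω ≠ star ω := by
    rw [← hω']
    exact fun h => hw (φ.injective h.symm)
  set s₀ : Matrix (Fin n) (Fin n) L :=
    ((t⁻¹ : (Matrix (Fin n) (Fin n) L)ˣ) : Matrix (Fin n) (Fin n) L) *
    (star ω • (T' : Matrix (Fin n) (Fin n) L) - ω • 1) with hs₀
  have e1 : (1 - (T' : Matrix (Fin n) (Fin n) L)) * s₀ =
      star ω • (T' : Matrix (Fin n) (Fin n) L) - ω • 1 := by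
    rw [hs₀, ← ht, Units.mul_inv_cancel_left]
  have hs : s₀ * H = H * s₀ᴴ := herm_of_unitary hT'U ⟨t, ht⟩ e1
  have e2 : (T' : Matrix (Fin n) (Fin n) L) * (s₀ + star ω • 1) = s₀ + ω • 1 := by
    have e1' := e1
    rw [sub_mul, one_mul, sub_eq_sub_iff_add_eq_add] at e1'
    rw [mul_add, mul_smul_comm, mul_one, add_comm, ← e1']
  have hu' : IsUnit (s₀ + star ω • (1 : Matrix (Fin n) (Fin n) L)) := by
    have e3 : (1 - (T' : Matrix (Fin n) (Fin n) L)) * (s₀ + star ω • 1) = (star ω - ω) • 1 := by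
      rw [sub_mul, one_mul, e2]
      rw [sub_smul]
      abel
    have e4 : IsUnit ((star ω - ω) • (1 : Matrix (Fin n) (Fin n) L)) := by
      rw [Matrix.isUnit_iff_isUnit_det, det_smul, det_one, mul_one]
      exact (isUnit_iff_ne_zero.2 (sub_ne_zero.2 hωne.symm)).pow _
    rw [← e3, ← ht] at e4
    have e5 := t⁻¹.isUnit.mul e4
    rwa [Units.inv_mul_cancel_left] at e5
  have hu : IsUnit (s₀ + ω • (1 : Matrix (Fin n) (Fin n) L)) := by
    rw [← e2]
    exact T'.isUnit.mul hu'
  have hev := eventually_cay hu hu' e2 (hO'o.mem_nhds hT'O)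
  obtain ⟨σ, hσ, h1, h2, h3⟩ := dense_sym_herm hA hn hst φ hφ hd hg hdet hgH hs hev
  have hgw : g (algebraMap K A w) = ω • (1 : Matrix (Fin n) (Fin n) L) := by
    rw [hg, Algebra.algebraMap_eq_smul_one]
  have hgw' : g (star (algebraMap K A w)) = star ω • (1 : Matrix (Fin n) (Fin n) L) := by
    rw [star_algKB, hg, Algebra.algebraMap_eq_smul_one, hω']
  obtain ⟨u, huu, -, hu2⟩ := exists_unit_cay' (w := algebraMap K A w)
    (fun x => Algebra.commutes w x) hσ
    (isUnit_of_splitting hA hn g (by rw [map_add, hgw]; exact h1))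
    (isUnit_of_splitting hA hn g (by rw [map_add, hgw']; exact h2))
  refine ⟨_, hO'O (h3 (Units.map (g : A →* Matrix (Fin n) (Fin n) L) u) ?_), ⟨u, huu⟩, rfl⟩
  change g (u : A) * (g σ + star ω • 1) = g σ + ω • 1
  rw [← hgw, ← hgw', ← map_add, ← map_add, ← map_mul, hu2]

omit [NontriviallyNormedField L] [StarRing L] in
set_option linter.unusedVariables false in
/-- **Density of the unitary group at a place which does not split in the centre**, in the form of
the list of statements. -/
theorem dense_u (hA : Anis k K A n) {L : Type*} [NontriviallyNormedField L] [ProperSpace L]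
    [StarRing L] (hst : ∀ x : L, ‖star x‖ = ‖x‖)
    (φ : K →+* L) (hφ : ∀ x, φ (star x) = star (φ x)) (hd : DenseRange φ)
    {g : A →+* Matrix (Fin n) (Fin n) L}
    (hg : ∀ c : K, g (algebraMap K A c) = algebraMap L _ (φ c))
    {H : Matrix (Fin n) (Fin n) L} (hH : Hᴴ = H) (hdet : H.det ≠ 0)
    (hgH : ∀ x, g (star x) * H = H * (g x)ᴴ) :
    (UH H : Set (Matrix (Fin n) (Fin n) L)ˣ) ⊆
      closure (Set.range fun u : H698.UA A =>
        Units.map (g : A →* Matrix (Fin n) (Fin n) L) (u : Aˣ)) :=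
  dense_u' hA hst φ hφ hd hg hdet hgH

end main

end Vale.Agent.P011.H800
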