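import Mathlib

/-!
# The group step of the spread argument for `M < Q`

`Q` a group, `M` a finite subgroup of `Q` (in the application: `Q = c(U)`, `M = c(SU)`, a product of
nonabelian simple groups, `Q / M` abelian).  The colour sets are only known to be stable under
conjugation by `M`, the conjugating elements of the relations lie in `Q`.

* `key_conj`: if `T` is `M`-stable and `a * (r b r⁻¹) ~ a * (r⁻¹ b r)` in `Q` for all `a b ∈ T`,
  `r ∈ M`, and `M` is generated by squares, then `a * (g b g⁻¹) ~ a * b` for all `g ∈ M`.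
* `inv_not_mem`: `a, a⁻¹ ∈ T` implies that `a` centralises `M`.
* `Rel r a b`: the relation for the label `(r, r)`; it implies the product relation.
* `even_contra`, `odd_contra`, `exists_colour`: for a finite `M ≠ 1` generated by squares and without
  nontrivial abelian normal subgroup there is `a ∈ M`, `a ≠ 1`, such that no `M`-stable set
  `T ∋ a` is linked with all labels in `M` (with the product relation only if `|M|` is even).
  No classification, no Feit–Thompson.
-/

namespace Vale.Agent.P011.H800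

open scoped commutatorElement

variable {Q : Type*} [Group Q]

/-- `T` is stable under conjugation by `M`. -/
def Stable (M : Subgroup Q) (T : Set Q) : Prop := ∀ g ∈ M, ∀ a ∈ T, g * a * g⁻¹ ∈ T

/-- `M` has no nontrivial abelian subgroup which is normalised by `M`. -/
def NoAb (M : Subgroup Q) : Prop :=
  ∀ A : Subgroup Q, A ≤ M → Stable M (A : Set Q) → (∀ a ∈ A, ∀ b ∈ A, a * b = b * a) → A = ⊥

/-- `M` is generated by its squares. -/
def SqGen (M : Subgroup Q) : Prop := M ≤ Subgroup.closure {x | ∃ r ∈ M, x = r * r}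

/-- A perfect group is generated by its squares. -/
theorem sqGen_of_perfect {M : Subgroup Q} (h : M ≤ ⁅M, M⁆) : SqGen M := by
  refine h.trans ?_
  rw [Subgroup.commutator_le]
  intro x hx y hy
  have e : ⁅x, y⁆ = ((x * y) * (x * y)) * ((y⁻¹ * x⁻¹ * y) * (y⁻¹ * x⁻¹ * y)) * (y⁻¹ * y⁻¹) := by
    rw [commutatorElement_def]; group
  rw [e]
  refine Subgroup.mul_mem _ (Subgroup.mul_mem _ ?_ ?_) ?_
  · exact Subgroup.subset_closure ⟨x * y, M.mul_mem hx hy, rfl⟩
  · exact Subgroup.subset_closure ⟨y⁻¹ * x⁻¹ * y,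
      M.mul_mem (M.mul_mem (M.inv_mem hy) (M.inv_mem hx)) hy, rfl⟩
  · exact Subgroup.subset_closure ⟨y⁻¹, M.inv_mem hy, rfl⟩

/-- The product relation with all labels in `M`. -/
def Prel (M : Subgroup Q) (T : Set Q) : Prop :=
  ∀ a ∈ T, ∀ b ∈ T, ∀ r ∈ M, IsConj (a * (r * b * r⁻¹)) (a * (r⁻¹ * b * r))

theorem key_conj {M : Subgroup Q} (hsq : SqGen M) {T : Set Q} (hT : Stable M T) (h : Prel M T)
    {a : Q} (ha : a ∈ T) {g : Q} (hg : g ∈ M) :
    ∀ b ∈ T, IsConj (a * (g * b * g⁻¹)) (a * b) := by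
  have hg' := hsq hg
  -- keep membership in `M` along the induction
  have hle : Subgroup.closure {x : Q | ∃ r ∈ M, x = r * r} ≤ M := by
    rw [Subgroup.closure_le]
    rintro _ ⟨r, hr, rfl⟩
    exact M.mul_mem hr hr
  clear hg
  induction hg' using Subgroup.closure_induction with
  | mem x hx =>
    obtain ⟨r, hr, rfl⟩ := hx
    intro b hb
    have h1 := h a ha (r * b * r⁻¹) (hT r hr b hb) r hr
    have e1 : r * (r * b * r⁻¹) * r⁻¹ = (r * r) * b * (r * r)⁻¹ := by group
    have e2 : r⁻¹ * (r * b * r⁻¹) * r = b := by group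
    rw [e1, e2] at h1
    exact h1
  | one => intro b hb; rw [one_mul, inv_one, mul_one]
  | mul x y hxm hym hx hy =>
    intro b hb
    have h1 := hx (y * b * y⁻¹) (hT y (hle hym) b hb)
    have h2 := hy b hb
    have e1 : x * (y * b * y⁻¹) * x⁻¹ = (x * y) * b * (x * y)⁻¹ := by group
    rw [e1] at h1
    exact h1.trans h2
  | inv x hxm hx =>
    intro b hb
    have h1 := hx (x⁻¹ * b * x⁻¹⁻¹) (hT x⁻¹ (M.inv_mem (hle hxm)) b hb)
    have e1 : x * (x⁻¹ * b * x⁻¹⁻¹) * x⁻¹ = b := by group
    rw [e1] at h1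
    exact h1.symm

/-- If `a` and `a⁻¹` both lie in a linked set, then `a` centralises `M`. -/
theorem comm_of_inv_mem {M : Subgroup Q} (hsq : SqGen M) {T : Set Q} (hT : Stable M T)
    (h : Prel M T) {a : Q} (ha : a ∈ T) (ha' : a⁻¹ ∈ T) {g : Q} (hg : g ∈ M) :
    g * a = a * g := by
  have h1 := key_conj hsq hT h ha' hg a ha
  rw [inv_mul_cancel, isConj_one_left] at h1
  have h2 : g * a * g⁻¹ = a := by
    rw [inv_mul_eq_one] at h1
    exact h1.symm
  calc g * a = g * a * g⁻¹ * g := by group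
    _ = a * g := by rw [h2]

/-- An element of `M` centralised by `M` is trivial. -/
theorem eq_one_of_central {M : Subgroup Q} (hM : NoAb M) {a : Q} (ha : a ∈ M)
    (hc : ∀ g ∈ M, g * a = a * g) : a = 1 := by
  have hA := hM (Subgroup.zpowers a) (by rwa [Subgroup.zpowers_le]) ?_ ?_
  · have : a ∈ Subgroup.zpowers a := Subgroup.mem_zpowers a
    rw [hA] at this
    simpa using this
  · intro g hg x hx
    obtain ⟨n, rfl⟩ := Subgroup.mem_zpowers_iff.1 hx
    have h1 : Commute g (a ^ n) := (show Commute g a from hc g hg).zpow_right n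
    rw [h1.eq, mul_inv_cancel_right]
    exact hx
  · intro x hx y hy
    obtain ⟨n, rfl⟩ := Subgroup.mem_zpowers_iff.1 hx
    obtain ⟨m, rfl⟩ := Subgroup.mem_zpowers_iff.1 hy
    exact ((Commute.refl a).zpow_zpow n m).eq

/-- The relation obtained from the label `(r, r)`. -/
def Rel (r a b : Q) : Prop := ∃ w : Q, w * (r * a) = (a * r) * w ∧ w * (r⁻¹ * b) = (b * r⁻¹) * w

/-- `Rel` implies the product relation. -/
theorem Rel.isConj {r a b : Q} (h : Rel r a b) :
    IsConj (a * (r * b * r⁻¹)) (a * (r⁻¹ * b * r)) := by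
  obtain ⟨w, h1, h2⟩ := h
  have h3 : IsConj (r * a * (r⁻¹ * b)) (a * r * (b * r⁻¹)) := by
    rw [isConj_iff]
    refine ⟨w, ?_⟩
    rw [mul_inv_eq_iff_eq_mul]
    calc w * (r * a * (r⁻¹ * b)) = w * (r * a) * (r⁻¹ * b) := by group
      _ = a * r * (w * (r⁻¹ * b)) := by rw [h1]; group
      _ = _ := by rw [h2]; group
  have h4 : IsConj (a * (r⁻¹ * b * r)) (r * a * (r⁻¹ * b)) :=
    isConj_iff.2 ⟨r, by group⟩
  have h5 := (h4.trans h3).symm
  have e : a * r * (b * r⁻¹) = a * (r * b * r⁻¹) := by group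
  rwa [e] at h5

/-- Even order: the product relation suffices. -/
theorem even_contra {M : Subgroup Q} (hsq : SqGen M) (hM : NoAb M) {a : Q} (ha : a ∈ M)
    (h1 : a ≠ 1) (h2 : a * a = 1) {T : Set Q} (hT : Stable M T) (haT : a ∈ T) (h : Prel M T) :
    False := by
  have hinv : a⁻¹ = a := inv_eq_of_mul_eq_one_left h2
  exact h1 (eq_one_of_central hM ha fun g hg =>
    comm_of_inv_mem hsq hT h haT (by rw [hinv]; exact haT) hg)

/-- The label `(r, r)` with `r² = b a⁻¹` forces `a` and `b` to commute. -/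
theorem Rel.comm {r a b : Q} (h : Rel r a b) (hr : r * r = b * a⁻¹) : a * b = b * a := by
  obtain ⟨w, h1, h2⟩ := h
  have e1 : r * a = r⁻¹ * b := by
    rw [eq_inv_mul_iff_mul_eq, ← mul_assoc, hr, inv_mul_cancel_right]
  rw [e1, h2] at h1
  have e2 : b * r⁻¹ = a * r := mul_right_cancel h1
  have e3 : b = a * (r * r) := by
    rw [mul_inv_eq_iff_eq_mul] at e2
    rw [e2, mul_assoc]
  rw [hr] at e3
  calc a * b = a * (b * a⁻¹) * a := by group
    _ = b * a := by rw [← e3]

/-- Odd order: the labels `(r, r)`. -/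
theorem odd_contra {M : Subgroup Q} [Finite M] (hodd : Odd (Nat.card M)) (hM : NoAb M) {a : Q}
    (ha : a ∈ M) (h1 : a ≠ 1) {T : Set Q} (hT : Stable M T) (haT : a ∈ T)
    (h : ∀ x ∈ T, ∀ y ∈ T, ∀ r ∈ M, Rel r x y) : False := by
  have hroot : ∀ x ∈ M, ∃ r ∈ M, r * r = x := by
    intro x hx
    have hco : (Nat.card M).Coprime 2 := Nat.coprime_two_right.2 hodd
    obtain ⟨r, hr⟩ := (powCoprime hco).surjective ⟨x, hx⟩
    refine ⟨(r : Q), r.2, ?_⟩
    have h2 := congrArg (Subtype.val) hr
    rw [powCoprime_apply] at h2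
    simpa [pow_two] using h2
  have hcomm : ∀ x ∈ T, x ∈ M → ∀ y ∈ T, y ∈ M → x * y = y * x := by
    intro x hx hxM y hy hyM
    obtain ⟨r, hr, hrr⟩ := hroot (y * x⁻¹) (M.mul_mem hyM (M.inv_mem hxM))
    exact (h x hx y hy r hr).comm hrr
  set S : Set Q := T ∩ M with hS
  have hA := hM (Subgroup.closure S) (by rw [Subgroup.closure_le]; exact Set.inter_subset_right)
    ?_ ?_
  · have : a ∈ Subgroup.closure S := Subgroup.subset_closure ⟨haT, ha⟩
    rw [hA] at this
    exact h1 (by simpa using this)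
  · intro g hg x hx
    change x ∈ Subgroup.closure S at hx
    change g * x * g⁻¹ ∈ Subgroup.closure S
    induction hx using Subgroup.closure_induction with
    | mem x hx =>
      exact Subgroup.subset_closure ⟨hT g hg x hx.1, M.mul_mem (M.mul_mem hg hx.2) (M.inv_mem hg)⟩
    | one => simp
    | mul x y _ _ hx hy =>
      have e : g * (x * y) * g⁻¹ = (g * x * g⁻¹) * (g * y * g⁻¹) := by group
      rw [e]
      exact Subgroup.mul_mem _ hx hy
    | inv x _ hx =>
      have e : g * x⁻¹ * g⁻¹ = (g * x * g⁻¹)⁻¹ := by group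
      rw [e]
      exact Subgroup.inv_mem _ hx
  · intro x hx y hy
    refine Subgroup.closure_induction₂ (p := fun x y _ _ => x * y = y * x)
      (fun x y hx hy => hcomm x hx.1 hx.2 y hy.1 hy.2) (fun x _ => by simp) (fun x _ => by simp)
      (fun x y z _ _ _ h1 h2 => ?_) (fun y z x _ _ _ h1 h2 => ?_)
      (fun x y _ _ h => ?_) (fun x y _ _ h => ?_) hx hy
    · exact ((show Commute x z from h1).mul_left h2).eq
    · exact ((show Commute x y from h1).mul_right h2).eq
    · exact ((show Commute x y from h).inv_left).eq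
    · exact ((show Commute x y from h).inv_right).eq

/-- **The group step.**  There is a colour `a ∈ M`, `a ≠ 1`, such that no `M`-stable set `T ∋ a` of
colours satisfies `Rel r x y` for all `x y ∈ T` and all labels `r ∈ M`; if `|M|` is even the
product relation is already contradictory. -/
theorem exists_colour {M : Subgroup Q} [Finite M] (hsq : SqGen M) (hM : NoAb M) (hne : M ≠ ⊥) :
    ∃ a ∈ M, a ≠ 1 ∧ ∀ T : Set Q, Stable M T → a ∈ T →
      (Even (Nat.card M) → ¬ Prel M T) ∧ ¬ ∀ x ∈ T, ∀ y ∈ T, ∀ r ∈ M, Rel r x y := by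
  rcases Nat.even_or_odd (Nat.card M) with he | ho
  · obtain ⟨⟨a, ha⟩, hord⟩ := exists_prime_orderOf_dvd_card' 2 he.two_dvd
    have h1 : a ≠ 1 := by
      rintro rfl
      have : (⟨1, ha⟩ : M) = 1 := rfl
      rw [this, orderOf_one] at hord
      exact absurd hord (by norm_num)
    have h2 : a * a = 1 := by
      have h3 := pow_orderOf_eq_one (⟨a, ha⟩ : M)
      rw [hord, pow_two] at h3
      exact congrArg Subtype.val h3
    refine ⟨a, ha, h1, fun T hT haT => ⟨fun _ h => even_contra hsq hM ha h1 h2 hT haT h,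
      fun h => even_contra hsq hM ha h1 h2 hT haT fun x hx y hy r hr => (h x hx y hy r hr).isConj⟩⟩
  · obtain ⟨a, ha, h1⟩ : ∃ a ∈ M, a ≠ 1 := by
      by_contra hcon
      push Not at hcon
      exact hne ((Subgroup.eq_bot_iff_forall M).2 hcon)
    refine ⟨a, ha, h1, fun T hT haT => ⟨fun he => ?_, fun h => odd_contra ho hM ha h1 hT haT h⟩⟩
    exact absurd he (Nat.not_even_iff_odd.2 ho)

end Vale.Agent.P011.H800
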